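import Vale.Agent.P143.Main
import Mathlib.GroupTheory.FreeGroup.Basic

/-!
# FUSF as a factor of i.i.d. on Cayley graphs and on all connected locally finite graphs
-/

namespace Vale.Agent.Results.P143.FactorOfIID

open SimpleGraph MeasureTheory unitInterval Vale.Agent.P143

universe u

lemma countable_of_fg {Γ : Type u} [Group Γ] {S : Set Γ} (hS : S.Finite)
    (hgen : Subgroup.closure S = ⊤) : Countable Γ := by
  have : Finite S := hS.to_subtype
  have hsur : Function.Surjective
      (fun L : List (S × Bool) => FreeGroup.lift (fun s : S => (s : Γ)) (FreeGroup.mk L)) := by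
    intro g
    have hg : g ∈ (FreeGroup.lift (fun s : S => (s : Γ))).range := by
      rw [FreeGroup.range_lift_eq_closure, Subtype.range_coe, hgen]
      exact Subgroup.mem_top g
    obtain ⟨w, hw⟩ := hg
    obtain ⟨L, rfl⟩ := Quot.exists_rep w
    exact ⟨L, hw⟩
  exact hsur.countable

lemma cayley_connected {Γ : Type u} [Group Γ] {S : Set Γ} (hgen : Subgroup.closure S = ⊤) :
    (mulCayley S).Connected := by
  have hstep : ∀ a g, g ∈ S → (mulCayley S).Reachable a (a * g) := by
    intro a g hg
    by_cases h : a = a * g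
    · rw [← h]
    · exact Adj.reachable ((mulCayley_adj' S a (a * g)).mpr ⟨h, g, hg, Or.inl rfl⟩)
  have key : ∀ g, ∀ a, (mulCayley S).Reachable a (a * g) := by
    intro g
    have hg : g ∈ Subgroup.closure S := hgen ▸ Subgroup.mem_top g
    induction hg using Subgroup.closure_induction with
    | mem x hx => exact fun a => hstep a x hx
    | one => exact fun a => by rw [mul_one]
    | mul x y _ _ ihx ihy => exact fun a => by rw [← mul_assoc]; exact (ihx a).trans (ihy _)
    | inv x _ ih =>
      intro a
      have := ih (a * x⁻¹)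
      rw [inv_mul_cancel_right] at this
      exact this.symm
  exact ⟨fun a b => by simpa using key (a⁻¹ * b) a⟩

lemma cayley_locallyFinite {Γ : Type u} [Group Γ] {S : Set Γ} (hS : S.Finite) (v : Γ) :
    ((mulCayley S).neighborSet v).Finite := by
  refine ((hS.image (fun g => v * g)).union (hS.image (fun g => v * g⁻¹))).subset ?_
  intro w hw
  obtain ⟨-, g, hg, h | h⟩ := (mulCayley_adj' S v w).mp hw
  · exact Or.inl ⟨g, hg, h⟩
  · exact Or.inr ⟨g, hg, by simp [h]⟩

/-- For every finitely generated group `Γ` with finite generating set `S`, the free uniform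
spanning forest of its Cayley graph is a `Γ`-factor of i.i.d.; and one Borel,
isomorphism-invariant function produces the free uniform spanning forest of every connected
locally finite graph on countably infinitely many vertices from i.i.d. vertex labels. -/
theorem result :
    (∀ (Γ : Type u) [Group Γ] (S : Set Γ), S.Finite → Subgroup.closure S = ⊤ →
      ∃ Φ : (Γ → I) → Sym2 Γ → Prop, Measurable Φ ∧
        (∀ γ U e, Φ (fun x => U (γ⁻¹ * x)) (e.map (fun x => γ * x)) ↔ Φ U e) ∧
        HasFUSFLaw (mulCayley S) Φ) ∧
    (∃ Φ : SimpleGraph ℕ → (ℕ → I) → Sym2 ℕ → Prop,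
      (∀ e, Measurable fun p : (ℕ → ℕ → Prop) × (ℕ → I) =>
        Φ (SimpleGraph.fromRel p.1) p.2 e) ∧
      (∀ (π : Equiv.Perm ℕ) (G : SimpleGraph ℕ) (U : ℕ → I) (e : Sym2 ℕ),
        Φ (G.map π.toEmbedding) (U ∘ π.symm) (e.map π) ↔ Φ G U e) ∧
      ∀ G : SimpleGraph ℕ, G.Connected → (∀ v, (G.neighborSet v).Finite) →
        HasFUSFLaw G (Φ G)) := by
  classical
  refine ⟨fun Γ _ S hS hgen => ?_, ⟨fun G => Phi G, fun e => ?_, fun π G U e => ?_,
    fun G hG hlf => phi_hasFUSFLaw hG hlf⟩⟩
  · have : Countable Γ := countable_of_fg hS hgen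
    refine ⟨Phi (mulCayley S), measurable_pi_lambda _ fun e => measurable_phi' _ e,
      fun γ U e => ?_, phi_hasFUSFLaw (cayley_connected hgen) (cayley_locallyFinite hS)⟩
    have h : ∀ f, edgeEquiv (Equiv.mulLeft γ) f ∈ (mulCayley S).edgeSet ↔
        f ∈ (mulCayley S).edgeSet := by
      intro f
      induction f using Sym2.ind with
      | _ a b => exact mulCayley_adj_mul_iff_right
    have := phi_map (Equiv.mulLeft γ) (mulCayley S) (mulCayley S) h U e
    simpa [Function.comp_def] using this
  · exact measurable_phi (A := fun p : (ℕ → ℕ → Prop) × (ℕ → I) => p.1)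
      (fun a b => (measurable_pi_apply b).comp ((measurable_pi_apply a).comp measurable_fst))
      measurable_snd e
  · refine phi_map π G (G.map π.toEmbedding) (fun f => ?_) U e
    induction f using Sym2.ind with
    | _ a b =>
      change (G.map π.toEmbedding).Adj (π.toEmbedding a) (π.toEmbedding b) ↔ G.Adj a b
      exact SimpleGraph.map_adj_apply

end Vale.Agent.Results.P143.FactorOfIID
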